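import Vale.Agent.P092SC.Tree
import Vale.Agent.P092NW.Defs

/-!
P092 (helper76), block SRC: the source data of block B4.
-/

set_option linter.all false

open Filter Topology MeasureTheory

namespace Vale.Agent.P092SC

open Vale.Agent.P092GK Vale.Agent.P092GK.FlD Vale.Agent.P092LG Vale.Agent.P092NW
open Vale.Agent.P092WN (Sys)
open Vale.Agent.P092.H933 (URep)

variable {k : Type} [NontriviallyNormedField k] {G : Type} [Group G] {r : ℕ}
  [TopologicalSpace G] [IsTopologicalGroup G] [T2Space G] {F : FlD k G r}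
  {s : Fin r → G} {N : ℕ} {τ : ℕ → Fin r} {w : ℕ → G}
  [ProperSpace k] [LocallyCompactSpace G] [SecondCountableTopology G] [MeasurableSpace G]
  [BorelSpace G]

theorem L₁_le_Cz (h : Fl F) (j : Fin r) : F.L₁ j ≤ Cz F.a j := by
  rintro g hg _ ⟨t, ht, rfl⟩
  exact h.a_comm_L hg fun i hi => ht i (by
    rw [Finset.mem_erase, not_and_or, not_not] at hi
    rw [hi.resolve_right (not_not.2 (Finset.mem_univ i))])

/-- arbitrarily large ping-pong families in the rank one Levi subgroups -/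
theorem pp_L₁ (h : Fl F) (hp : Pan F s N τ w) (j : Fin r) (n : ℕ) :
    ∃ p, n ≤ p ∧ ∃ x : Fin p → G, PP x ∧ ∀ l, x l ∈ F.L₁ j := by
  obtain ⟨Q, -, h1, T, -, h2⟩ := fam h hp j
  obtain ⟨κ, κ', h3, h4⟩ := h2 n
  exact ⟨2 ^ n, Nat.lt_two_pow_self.le, _, h4, fun l => (F.L₁ j).mul_mem ((F.L₁ j).mul_mem
    (h1 (h3 l).1) (h.z_mem_L (F.Z.pow_mem (h.bZ j) _) _)) (h1 (h3 l).2)⟩

/-- the hypothesis of `leviGap` -/
theorem pp_comm (h : Fl F) (hp : Pan F s N τ w) {j : Fin r} {t : Fin r → ℤ} (ht : t j = 0) (n : ℕ) :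
    ∃ p, n ≤ p ∧ ∃ x : Fin p → G, PP x ∧ ∀ l, Commute (x l) (F.a t) := by
  obtain ⟨p, h1, x, h2, h3⟩ := pp_L₁ h hp j n
  refine ⟨p, h1, x, h2, fun l => (h.a_comm_L (h3 l) fun i hi => ?_).symm⟩
  rw [Finset.mem_erase, not_and_or, not_not] at hi
  rwa [hi.resolve_right (not_not.2 (Finset.mem_univ i))]

theorem pp_comm_b (h : Fl F) (hp : Pan F s N τ w) {i j : Fin r} (hij : i ≠ j) (n : ℕ) :
    ∃ p, n ≤ p ∧ ∃ x : Fin p → G, PP x ∧ ∀ l, Commute (x l) (F.b i) := by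
  have := pp_comm h hp (j := j) (t := Pi.single i 1) (Pi.single_eq_of_ne hij.symm _) n
  rwa [h.a_single, zpow_one] at this

/-- **The ping-pong families of the source.** -/
theorem src_pp (h : Fl F) (hp : Pan F s N τ w) : ∃ R c : ℝ, 0 ≤ R ∧ 0 < c ∧
    (∀ t : Fin r → ℤ, (∀ i, |t i| ≤ 1) → F.len (F.a t) ≤ R) ∧
    (∀ j : Fin r, ∀ᶠ n : ℕ in atTop, ∃ (p : ℕ) (κ κ' : Fin p → G), Real.exp (c * n) ≤ p ∧
      (∀ l, F.len (κ l) ≤ R ∧ F.len (κ' l) ≤ R ∧ κ l ∈ F.L₁ j ∧ κ' l ∈ F.L₁ j) ∧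
      PP fun l => κ l * F.a (Pi.single j (n : ℤ)) * κ' l) ∧
    ∀ j : Fin r, ∃ (p : ℕ) (x : Fin p → G), 4 < p ∧ (∀ l, F.len (x l) ≤ R ∧ x l ∈ F.L₁ j) ∧
      PP x := by
  choose Q hQ h1 T hT h2 using fam h hp
  choose R hR h3 using fun j => h.len_cpt (hQ j)
  choose p h4 x h5 h6 using fun j => pp_L₁ h hp j 5
  obtain ⟨A, hA⟩ := (Set.finite_range fun j => R j + T j * F.len (F.b j)).bddAbove
  obtain ⟨B, hB⟩ := (Set.finite_range fun q : Σ j, Fin (p j) => F.len (x q.1 q.2)).bddAbove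
  obtain ⟨C, hC⟩ := ((Set.finite_Icc (fun _ : Fin r => (-1 : ℤ)) fun _ => 1).image
    fun t => F.len (F.a t)).bddAbove
  obtain ⟨T0, hT0⟩ := (Set.finite_range T).bddAbove
  have hl := Real.log_pos one_lt_two
  refine ⟨max (max A B) (max C 0), Real.log 2 / (2 * (T0 + 1)), (le_max_right _ _).trans
    (le_max_right _ _), by positivity, fun t ht => ?_, fun j => ?_, fun j => ?_⟩
  · exact (hC ⟨t, ⟨fun i => (abs_le.1 (ht i)).1, fun i => (abs_le.1 (ht i)).2⟩, rfl⟩).trans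
      ((le_max_left _ _).trans (le_max_right _ _))
  · filter_upwards [eventually_ge_atTop (T j)] with n hn
    obtain ⟨κ, κ', h7, h8⟩ := h2 j (n / T j)
    have h9 : R j + T j * F.len (F.b j) ≤ max (max A B) (max C 0) :=
      (hA ⟨j, rfl⟩).trans ((le_max_left _ _).trans (le_max_left _ _))
    have h10 := F.len_nonneg (F.b j)
    refine ⟨_, κ, fun l => (F.b j ^ (n % T j))⁻¹ * κ' l, ?_, fun l => ⟨?_, ?_, h1 j (h7 l).1,
      (F.L₁ j).mul_mem ((F.L₁ j).inv_mem (h.z_mem_L (F.Z.pow_mem (h.bZ j) _) _))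
        (h1 j (h7 l).2)⟩, ?_⟩
    · have h11 : n ≤ 2 * (T0 + 1) * (n / T j) := by
        have h12 := Nat.lt_mul_div_succ n (hT j)
        have h13 := Nat.div_pos hn (hT j)
        have h14 : T j ≤ T0 := hT0 ⟨j, rfl⟩
        nlinarith
      have h12 : (n : ℝ) ≤ 2 * (T0 + 1) * ((n / T j : ℕ) : ℝ) := by exact_mod_cast h11
      have h13 : ((2 ^ (n / T j) : ℕ) : ℝ) = Real.exp ((n / T j : ℕ) * Real.log 2) := by
        rw [Real.exp_nat_mul, Real.exp_log two_pos, Nat.cast_pow, Nat.cast_ofNat]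
      rw [h13, Real.exp_le_exp, div_mul_eq_mul_div, div_le_iff₀ (by positivity)]
      nlinarith
    · have := mul_nonneg (Nat.cast_nonneg (α := ℝ) (T j)) h10
      linarith [h3 j _ (h7 l).1]
    · have h11 := h.len_mul (F.b j ^ (n % T j))⁻¹ (κ' l)
      have h12 := h.len_pow (F.b j) (n % T j)
      have h13 : ((n % T j : ℕ) : ℝ) ≤ T j := by exact_mod_cast (Nat.mod_lt n (hT j)).le
      rw [F.len_inv] at h11
      nlinarith [h3 j _ (h7 l).2]
    · have h11 : F.a (Pi.single j (n : ℤ)) = F.b j ^ (T j * (n / T j)) * F.b j ^ (n % T j) := by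
        rw [h.a_single, zpow_natCast, ← pow_add, Nat.div_add_mod]
      simpa only [h11, mul_assoc, mul_inv_cancel_left] using h8
  · exact ⟨p j, x j, h4 j, fun l => ⟨(hB ⟨⟨j, l⟩, rfl⟩).trans
      ((le_max_right _ _).trans (le_max_left _ _)), h6 j l⟩, h5 j⟩

variable {Γ H H₀ G' : Type} [Group Γ] [NormedAddCommGroup H] [InnerProductSpace ℂ H]
  [CompleteSpace H] [NormedAddCommGroup H₀] [InnerProductSpace ℂ H₀] [Group G']
  [TopologicalSpace G'] [MeasurableSpace G']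

/-- **The source data**, from the ping-pong inequality and the gap of ping-pong families. -/
theorem src_of (h : Fl F) (hp : Pan F s N τ w) (S : Sys G Γ H H₀) (μ' : Measure G') (e : Γ →* G')
    (h1 : ∀ (p : ℕ) (x : Fin p → G), PP x → Pair S μ' e x)
    (h2 : ∀ (p : ℕ) (x : Fin p → G), 4 < p → PP x → ∃ θ : ℝ, 0 ≤ θ ∧ θ < 1 ∧
      ∀ v, ‖((p : ℂ))⁻¹ • ∑ l, S.σ (x l) v‖ ≤ θ * ‖v‖) : ∃ Q c, Src S μ' e F.a Q c := by
  obtain ⟨R, c, hR, hc, h3, h4, h5⟩ := src_pp h hp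
  refine ⟨{g | F.len g ≤ R}, c, h.a_add, h.cpt_len R, by rwa [Set.mem_setOf_eq, h.len_one],
    fun g hg => by rwa [Set.mem_setOf_eq, F.len_inv], h3, hc, fun j => ?_, fun j => ?_⟩
  · filter_upwards [h4 j] with n ⟨p, κ, κ', h6, h7, h8⟩
    exact ⟨p, κ, κ', h6, fun l => ⟨(h7 l).1, (h7 l).2.1, L₁_le_Cz h j (h7 l).2.2.1,
      L₁_le_Cz h j (h7 l).2.2.2⟩, h1 p _ h8⟩
  · obtain ⟨p, x, h6, h7, h8⟩ := h5 j
    exact ⟨p, x, by omega, fun l => ⟨(h7 l).1, L₁_le_Cz h j (h7 l).2⟩, h2 p x h6 h8⟩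

/-- **The source data**, with the gap from Howe-Moore and Kazhdan. -/
theorem src [CompleteSpace H₀] (h : Fl F) (hp : Pan F s N τ w) (μ : Measure G) [μ.IsHaarMeasure]
    [μ.IsMulRightInvariant] {I : Type} {A : I → Set G} (hA : HMF A) (S : Sys G Γ H H₀)
    (hσ : URep S.σ) (hN : ∀ i, NoFix S.σ (A i)) (μ' : Measure G') (e : Γ →* G')
    (h1 : ∀ (p : ℕ) (x : Fin p → G), PP x → Pair S μ' e x) : ∃ Q c, Src S μ' e F.a Q c := by
  refine src_of h hp S μ' e h1 fun p x h2 h3 => ?_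
  obtain ⟨κ, hκ, h4⟩ := gap_true μ (P092GH.geo h) hA h2
  exact ⟨max (1 - κ) 0, le_max_right _ _, max_lt (by linarith) one_pos, fun v =>
    (h4 H₀ S.σ hσ hN x h3 v).1.trans (mul_le_mul_of_nonneg_right (le_max_left _ _) (norm_nonneg _))⟩

end Vale.Agent.P092SC
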