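import Vale.Agent.P092GB.Root
import Vale.Agent.P092GH.HM
import Vale.Agent.P092LG.PP

/-!
P092 (helper76), block SRC: exponentially large ping-pong families in the rank one Levi subgroups.
-/

set_option linter.all false

open Filter Topology

namespace Vale.Agent.P092SC

open Vale.Agent.P092GK Vale.Agent.P092GK.FlD Vale.Agent.P092LG

section tree

variable {G : Type} [Group G]

theorem mem_eq {S : Subgroup G} {a b : G} (h : a ∈ S) (e : a = b) : b ∈ S := e ▸ h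

/-- a binary tree of separated points -/
theorem tree {c u : G} {D : Set G} (h0 : ∀ d ∈ D, c * d * c⁻¹ ∈ D)
    (h1 : ∀ d ∈ D, u * (c * d * c⁻¹) ∈ D)
    (hd : ∀ d ∈ D, ∀ d' ∈ D, c * d * c⁻¹ ≠ u * (c * d' * c⁻¹)) (q : ℕ) :
    ∃ (ι : Type) (_ : Fintype ι) (κ : ι → G), Fintype.card ι = 2 ^ q ∧
      (∀ l, ∀ d ∈ D, κ l * (c ^ q * d * (c ^ q)⁻¹) ∈ D) ∧ ∀ l l', l ≠ l' → ∀ d ∈ D, ∀ d' ∈ D,
        κ l * (c ^ q * d * (c ^ q)⁻¹) ≠ κ l' * (c ^ q * d' * (c ^ q)⁻¹) := by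
  induction q with
  | zero =>
    exact ⟨Unit, inferInstance, fun _ => 1, by simp, fun _ d hd => by simpa using hd,
      fun l l' h => absurd rfl h⟩
  | succ q ih =>
    obtain ⟨ι, _, κ, hc, h2, h3⟩ := ih
    have e : ∀ (x y d : G), x * (c * y * c⁻¹) * (c ^ (q + 1) * d * (c ^ (q + 1))⁻¹) =
        x * (c * (y * (c ^ q * d * (c ^ q)⁻¹)) * c⁻¹) := fun x y d => by
      rw [pow_succ']; group
    refine ⟨Bool × ι, inferInstance, fun l => (if l.1 then u else 1) * (c * κ l.2 * c⁻¹),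
      by rw [Fintype.card_prod, hc, Fintype.card_bool, pow_succ'], ?_, ?_⟩
    · rintro ⟨b, l⟩ d hd
      rw [e]
      cases b
      · simpa using h0 _ (h2 l d hd)
      · simpa using h1 _ (h2 l d hd)
    · rintro ⟨b, l⟩ ⟨b', l'⟩ hne d hd1 d' hd2
      rw [e, e]
      by_cases hb : b = b'
      · subst hb
        intro h4
        exact h3 l l' (fun h5 => hne (by rw [h5])) d hd1 d' hd2
          (mul_left_cancel (mul_right_cancel (mul_left_cancel h4)))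
      · cases b <;> cases b'
        · exact absurd rfl hb
        · simpa using hd _ (h2 l d hd1) _ (h2 l' d' hd2)
        · simpa using (hd _ (h2 l' d' hd2) _ (h2 l d hd1)).symm
        · exact absurd rfl hb

variable [TopologicalSpace G] [IsTopologicalGroup G] [T2Space G] [LocallyCompactSpace G]

/-- separated families in a contracted subgroup -/
theorem side {I : Subgroup G} (hI : IsClosed (I : Set G)) {c u : G}
    (hc : ∀ x ∈ I, c * x * c⁻¹ ∈ I) (hu : u ∈ I) (hu1 : u ≠ 1)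
    (con : ∀ C : Set G, IsCompact C → C ⊆ I → ∀ O ∈ 𝓝 (1 : G),
      ∀ᶠ n : ℕ in atTop, ∀ x ∈ C, c ^ n * x * (c ^ n)⁻¹ ∈ O)
    {C : Set G} (hC : IsCompact C) (hCI : C ⊆ I) :
    ∃ D : Set G, IsCompact D ∧ D ⊆ I ∧ ∀ᶠ T : ℕ in atTop, ∀ q : ℕ, ∃ κ : Fin (2 ^ q) → G,
      (∀ l, κ l ∈ D) ∧ ∀ l l', l ≠ l' → ∀ d ∈ C, ∀ d' ∈ C,
        κ l * (c ^ (T * q) * d * (c ^ (T * q))⁻¹) ≠ κ l' * (c ^ (T * q) * d' * (c ^ (T * q))⁻¹) := by
  obtain ⟨V, hV, hV'⟩ := exists_nhds_split_inv (isOpen_ne.mem_nhds hu1.symm : {x | x ≠ u} ∈ 𝓝 1)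
  obtain ⟨W, hW, hWV, hWc⟩ := local_compact_nhds hV
  have h1 : IsCompact (W ∩ I) := hWc.inter_right hI
  have h2 : IsCompact (C ∪ (W ∩ I) ∪ (fun x => u * x) '' (W ∩ I)) :=
    (hC.union h1).union (h1.image (continuous_const_mul u))
  have h3 : C ∪ (W ∩ I) ∪ (fun x => u * x) '' (W ∩ I) ⊆ I := by
    rintro x ((hx | hx) | ⟨y, hy, rfl⟩)
    exacts [hCI hx, hx.2, I.mul_mem hu hy.2]
  have h4 : ∀ n : ℕ, ∀ x ∈ I, c ^ n * x * (c ^ n)⁻¹ ∈ I := by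
    intro n
    induction n with
    | zero => intro x hx; simpa using hx
    | succ n ih =>
      intro x hx
      have := hc _ (ih x hx)
      rwa [show c * (c ^ n * x * (c ^ n)⁻¹) * c⁻¹ = c ^ (n + 1) * x * (c ^ (n + 1))⁻¹ by
        rw [pow_succ']; group] at this
  refine ⟨_, h2, h3, ?_⟩
  filter_upwards [con _ h2 h3 W hW] with T hT q
  have h5 := fun d hd => (⟨hT d hd, h4 T d (h3 hd)⟩ : c ^ T * d * (c ^ T)⁻¹ ∈ W ∩ I)
  obtain ⟨ι, _, κ, hι, h6, h7⟩ := tree (c := c ^ T) (u := u) (fun d hd => Or.inl (Or.inr (h5 d hd)))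
    (fun d hd => Or.inr ⟨_, h5 d hd, rfl⟩) (fun d hd d' hd' e => hV' _ (hWV (h5 d hd).1) _
      (hWV (h5 d' hd').1) (by rw [e, mul_div_cancel_right])) q
  let e := (Fintype.equivFinOfCardEq hι).symm
  refine ⟨fun l => κ (e l), fun l => ?_, fun l l' hl d hd d' hd' => ?_⟩
  · simpa using h6 (e l) 1 (Or.inl (Or.inr ⟨mem_of_mem_nhds hW, I.one_mem⟩))
  · rw [pow_mul]
    exact h7 _ _ (e.injective.ne hl) d (Or.inl (Or.inl hd)) d' (Or.inl (Or.inl hd'))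

end tree

variable {k : Type} [NontriviallyNormedField k] {G : Type} [Group G] {r : ℕ}
  [TopologicalSpace G] [IsTopologicalGroup G] [T2Space G] {F : FlD k G r}
  {s : Fin r → G} {N : ℕ} {τ : ℕ → Fin r} {w : ℕ → G}

/-- Iwasawa decomposition of a Levi subgroup -/
theorem iwa_L (h : Fl F) (θ : Finset (Fin r)) : ∃ C : Set G, IsCompact C ∧ C ⊆ F.L θ ∧
    ∀ l ∈ F.L θ, ∃ x ∈ C, x⁻¹ * l ∈ F.P Finset.univ := by
  obtain ⟨C, hC, h1⟩ := h.iwa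
  refine ⟨_, (hC.inter_right (h.isClosed_P θ)).image_of_continuousOn
    ((h.lp_cont θ).mono Set.inter_subset_right), ?_, fun l hl => ?_⟩
  · rintro _ ⟨x, hx, rfl⟩
    exact (h.lp_spec hx.2).1
  · obtain ⟨x, hx, z, hz, u, hu, e⟩ := h1 l
    have h2 : z * u ∈ F.P θ := (F.P θ).mul_mem (h.z_mem_P hz θ) (h.up_mem_P hu θ)
    have h3 : x ∈ F.P θ := by
      have := (F.P θ).mul_mem (h.L_le_P θ hl) ((F.P θ).inv_mem h2)
      rwa [e, mul_assoc x, mul_inv_cancel_right] at this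
    refine ⟨_, ⟨x, ⟨hx, h3⟩, rfl⟩, ?_⟩
    have h4 := h.up_mem_P (h.U_le_Up θ (h.lp_spec h3).2.1) Finset.univ
    have h5 := (F.P Finset.univ).mul_mem h4
      ((F.P _).mul_mem (h.z_mem_P hz Finset.univ) (h.up_mem_P hu Finset.univ))
    rwa [mul_assoc, ← mul_assoc x, ← e] at h5

theorem mem_Ω_L (h : Fl F) {j : Fin r} {x : G} (hx : x ∈ F.L₁ j) (h0 : F.Δ j x ≠ 0) : x ∈ F.Ω := by
  intro i
  by_cases hi : i = j
  · rwa [hi]
  · exact h.Δ_ne_P (h.L_le_P _ hx) (by simpa using hi)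

theorem two_corner (h : Fl F) (hp : Pan F s N τ w) {j : Fin r} {x : G} (hx : x ∈ F.L₁ j) :
    F.Δ j x ≠ 0 ∨ F.Δ j ((s j)⁻¹ * x) ≠ 0 :=
  (hp.bru j x hx).imp (fun e => h.Δ_ne_P e (Finset.mem_univ j)) fun e => e j

/-- the half of the panel near a given chamber is compact in the cell -/
theorem half (h : Fl F) (hp : Pan F s N τ w) (j : Fin r) {x y : G} (hx : x ∈ F.L₁ j)
    (e : ∀ l ∈ F.L₁ j, F.Δ j (x * l) ≠ 0 ∨ F.Δ j (y * l) ≠ 0) :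
    ∃ C : Set G, IsCompact C ∧ C ⊆ (F.Um ⊓ F.L₁ j : Subgroup G) ∧ ∀ l ∈ F.L₁ j,
      ‖F.Δ j (y * l)‖ ≤ ‖F.Δ j (x * l)‖ → ∃ d ∈ C, d⁻¹ * (x * l) ∈ F.P Finset.univ := by
  obtain ⟨C, hC, h1, h2⟩ := iwa_L h (Finset.univ.erase j)
  have h3 : IsCompact (C ∩ {l | ‖F.Δ j (y * l)‖ ≤ ‖F.Δ j (x * l)‖}) := hC.inter_right
    (isClosed_le ((h.contΔ j).comp (continuous_const_mul y)).norm
      ((h.contΔ j).comp (continuous_const_mul x)).norm)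
  have h4 : ∀ l ∈ C ∩ {l | ‖F.Δ j (y * l)‖ ≤ ‖F.Δ j (x * l)‖}, x * l ∈ F.Ω := fun l hl =>
    mem_Ω_L h ((F.L₁ j).mul_mem hx (h1 hl.1)) fun h0 => (e l (h1 hl.1)).elim (fun h5 => h5 h0)
      fun h5 => h5 (norm_le_zero_iff.1 (hl.2.trans_eq (by rw [h0, norm_zero])))
  refine ⟨_, h3.image_of_continuousOn (h.lo_cont.comp (continuous_const_mul x).continuousOn h4),
    ?_, fun l hl hle => ?_⟩
  · rintro _ ⟨l, hl, rfl⟩
    exact ⟨h.lo_mem _ (h4 l hl), h.lo_mem_P (h4 l hl) (h.L_le_P _ ((F.L₁ j).mul_mem hx (h1 hl.1)))⟩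
  · obtain ⟨a, ha, hp'⟩ := h2 l hl
    have h5 : ∀ g, F.Δ j (g * l) = F.Δ j (g * a) * F.Δ j (a⁻¹ * l) := fun g => by
      rw [← h.Δ_P hp' (Finset.mem_univ j), mul_assoc, mul_inv_cancel_left]
    have h6 : a ∈ C ∩ {l | ‖F.Δ j (y * l)‖ ≤ ‖F.Δ j (x * l)‖} := ⟨ha, by
      rw [h5, h5 x, norm_mul, norm_mul] at hle
      exact le_of_mul_le_mul_right hle (norm_pos_iff.2 (h.Δ_ne_P hp' (Finset.mem_univ j)))⟩
    refine ⟨_, ⟨a, h6, rfl⟩, ?_⟩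
    have h7 := (F.P Finset.univ).mul_mem ((F.P Finset.univ).mul_mem
      (h.z_mem_P (h.mid_mem _ (h4 a h6)) _) (h.up_mem_P (h.up_mem _ (h4 a h6)) _)) hp'
    rwa [inv_mul_cancel_right, mul_assoc, mul_assoc x, mul_inv_cancel_left] at h7

/-- an equivariant measurable retraction on a Levi subgroup, seen through the coefficients -/
theorem retr [SecondCountableTopology G] [MeasurableSpace G] [BorelSpace G] (h : Fl F)
    (θ : Finset (Fin r)) : ∃ t : G → G, Measurable t ∧ (∀ l ∈ F.L θ, ∀ x, t (l * x) = l * t x) ∧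
      ∀ x, ∃ l ∈ F.L θ, ∀ m ∈ F.L θ, ∀ j, F.Δ j (m * t x) = F.Δ j (m * l) := by
  classical
  let X : Set G := ⋃ l ∈ F.L θ, (fun x => l * x) ⁻¹' F.Ω
  have h1 : IsOpen X := isOpen_biUnion fun l _ => h.isOpen_Ω.preimage (continuous_const_mul l)
  have h2 : ∀ l ∈ F.L θ, ∀ x, l * x ∈ X ↔ x ∈ X := by
    intro l hl x
    simp only [X, Set.mem_iUnion, Set.mem_preimage]
    exact ⟨fun ⟨m, hm, e⟩ => ⟨m * l, (F.L θ).mul_mem hm hl, by rwa [mul_assoc]⟩,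
      fun ⟨m, hm, e⟩ => ⟨m * l⁻¹, (F.L θ).mul_mem hm ((F.L θ).inv_mem hl), by
        rwa [mul_assoc, inv_mul_cancel_left]⟩⟩
  let g := TopologicalSpace.denseSeq G
  have h3 : ∀ x, ∃ n, x * g n ∈ X := fun x =>
    (TopologicalSpace.denseRange_denseSeq G).exists_mem_open
      (h1.preimage (continuous_const_mul x)) ⟨x⁻¹, by
        rw [Set.mem_preimage, mul_inv_cancel]
        exact Set.mem_biUnion (F.L θ).one_mem (by simpa using h.one_mem)⟩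
  refine ⟨fun x => x * g (Nat.find (h3 x)), ?_, fun l hl x => ?_, fun x => ?_⟩
  · exact measurable_id.mul ((measurable_from_nat (f := g)).comp (measurable_find h3 fun n =>
      (h1.preimage (continuous_mul_const (g n))).measurableSet))
  · have : Nat.find (h3 (l * x)) = Nat.find (h3 x) := by
      simp only [mul_assoc, h2 l hl]
    show l * x * g (Nat.find (h3 (l * x))) = l * (x * g (Nat.find (h3 x)))
    rw [this, mul_assoc]
  · obtain ⟨l, hl, e⟩ := Set.mem_iUnion₂.1 (Nat.find_spec (h3 x))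
    set y := x * g (Nat.find (h3 x))
    have e : l * y ∈ F.Ω := e
    obtain ⟨a, ha, u, hu, e1⟩ := h.levi' (h.um_mem_Pm (h.lo_mem _ e) θ)
    have h4 := (F.L θ).mul_mem ((F.L θ).inv_mem hl) ha
    refine ⟨_, (F.L θ).mul_mem h4 (h.z_mem_L (h.md_mem e) θ), fun m hm j => ?_⟩
    have h5 := h.U'_le_Um θ (h.U'_conj ((F.L θ).mul_mem hm h4) hu)
    have h6 : m * y = (m * (l⁻¹ * a) * u * (m * (l⁻¹ * a))⁻¹) * (m * (l⁻¹ * a * F.md (l * y))) *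
        F.up (l * y) := by
      calc m * y = m * l⁻¹ * (F.lo (l * y) * F.md (l * y) * F.up (l * y)) := by
            rw [F.lo_md_up]; group
        _ = _ := by rw [e1]; group
    rw [h6, h.Δ_up (h.up_mem _ e), h.Δ_um h5]

theorem um_P (h : Fl F) {u : G} (hu : u ∈ F.Um) (hp : u ∈ F.P Finset.univ) : u = 1 :=
  h.U'_inf_P (h.U'_univ.2 hu) hp

variable [ProperSpace k] [LocallyCompactSpace G] [SecondCountableTopology G] [MeasurableSpace G]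
  [BorelSpace G]

/-- **Ping-pong families.** -/
theorem fam (h : Fl F) (hp : Pan F s N τ w) (j : Fin r) : ∃ Q : Set G, IsCompact Q ∧
    Q ⊆ F.L₁ j ∧ ∃ T : ℕ, 0 < T ∧ ∀ q : ℕ, ∃ κ κ' : Fin (2 ^ q) → G, (∀ l, κ l ∈ Q ∧ κ' l ∈ Q) ∧
      PP fun l => κ l * F.b j ^ (T * q) * κ' l := by
  have hs := P092GH.s_L₁ hp j
  have hs' := (F.L₁ j).inv_mem hs
  have hb := h.bZ j
  have hbL : ∀ n : ℕ, F.b j ^ n ∈ F.L₁ j := fun n => h.z_mem_L (F.Z.pow_mem hb n) _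
  have hsZ : ∀ z ∈ F.Z, (s j)⁻¹ * z * s j ∈ F.Z := fun z hz =>
    (hp.sZ j _).2 (by simpa [mul_assoc] using hz)
  have hℓ : 0 < F.ℓ (F.b j) j := by rw [h.bℓ, Pi.single_eq_same]; exact h.β_pos
  obtain ⟨C, hC, hC1, hC2⟩ := half h hp j (x := 1) (y := (s j)⁻¹) (F.L₁ j).one_mem
    fun l hl => by rw [one_mul]; exact two_corner h hp hl
  obtain ⟨C', hC', hC1', hC2'⟩ := half h hp j (x := (s j)⁻¹) (y := 1) hs'
    fun l hl => by rw [one_mul]; exact (two_corner h hp hl).symm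
  obtain ⟨u, hu, -, -, -, -, huL, -, -, hu1, -⟩ := hp.gen j
  have hU : ∀ x ∈ F.Um ⊓ F.L₁ j, s j * x * (s j)⁻¹ ∈ F.Up ⊓ F.L₁ j := fun x hx => by
    have h1 := (F.L₁ j).mul_mem ((F.L₁ j).mul_mem hs hx.2) hs'
    refine ⟨(hp.sU j _ h1).2 ?_, h1⟩
    have := h.zum _ (hp.ss j) x hx.1
    rwa [show s j * s j * x * (s j * s j)⁻¹ = s j * (s j * x * (s j)⁻¹) * (s j)⁻¹ by group] at this
  have hU' : ∀ x ∈ F.Up ⊓ F.L₁ j, (s j)⁻¹ * x * s j ∈ F.Um := fun x hx => by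
    have := h.zum _ (F.Z.inv_mem (hp.ss j)) _ ((hp.sU j x hx.2).1 hx.1)
    rwa [show (s j * s j)⁻¹ * (s j * x * (s j)⁻¹) * (s j * s j)⁻¹⁻¹ = (s j)⁻¹ * x * s j by group]
      at this
  obtain ⟨D, hD, hD1, hD2⟩ := side (I := F.Um ⊓ F.L₁ j) (c := F.b j) (u := s j * u * (s j)⁻¹)
    (h.clUm.inter (h.isClosed_L _))
    (fun x hx => ⟨h.zum _ hb x hx.1, (F.L₁ j).mul_mem ((F.L₁ j).mul_mem (h.z_mem_L hb _) hx.2)
      ((F.L₁ j).inv_mem (h.z_mem_L hb _))⟩)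
    ⟨(hp.sU j u huL).1 hu, (F.L₁ j).mul_mem ((F.L₁ j).mul_mem hs huL) hs'⟩
    (by simpa using hu1) (fun C hC e O hO => P092GB.con_um h hb hℓ hC e hO) hC hC1
  obtain ⟨D', hD', hD1', hD2'⟩ := side (I := F.Up ⊓ F.L₁ j) (c := (F.b j)⁻¹) (u := u)
    (h.clUp.inter (h.isClosed_L _))
    (fun x hx => ⟨h.zup _ (F.Z.inv_mem hb) x hx.1, (F.L₁ j).mul_mem ((F.L₁ j).mul_mem
      (h.z_mem_L (F.Z.inv_mem hb) _) hx.2) ((F.L₁ j).inv_mem (h.z_mem_L (F.Z.inv_mem hb) _))⟩)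
    ⟨hu, huL⟩ hu1 (fun C hC e O hO => P092GB.con_up h (F.Z.inv_mem hb)
      (by rw [h.ℓ_inv hb, Pi.neg_apply, neg_neg]; exact hℓ) hC e hO)
    (hC'.image (f := fun x => s j * x * (s j)⁻¹) (by fun_prop))
    (by rintro _ ⟨x, hx, rfl⟩; exact hU x (hC1' hx))
  obtain ⟨T, ⟨h1, h2⟩, hT⟩ := ((hD2.and hD2').and (eventually_gt_atTop 0)).exists
  obtain ⟨t, ht, ht1, ht2⟩ := retr h (Finset.univ.erase j)
  refine ⟨D ∪ D'⁻¹, hD.union hD'.inv, ?_, T + T, by omega, fun q => ?_⟩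
  · rintro x (hx | hx)
    · exact (hD1 hx).2
    · exact (F.L₁ j).inv_mem_iff.1 (hD1' hx).2
  obtain ⟨κ, h3, h4⟩ := h1 q
  obtain ⟨κ', h3', h4'⟩ := h2 q
  set c := F.b j ^ (T * q) with hc
  have hcL : c ∈ F.L₁ j := hbL _
  have hcZ : c ∈ F.Z := F.Z.pow_mem hb _
  let R : Set G := {x | ‖F.Δ j ((s j)⁻¹ * t x)‖ ≤ ‖F.Δ j (1 * t x)‖}
  have hR : MeasurableSet R := measurableSet_le
    (((h.contΔ j).comp (continuous_const_mul _)).norm.measurable.comp ht)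
    (((h.contΔ j).comp (continuous_const_mul _)).norm.measurable.comp ht)
  have key : ∀ x, ∃ l ∈ F.L₁ j, ∀ m ∈ F.L₁ j, m * x ∈ R ↔
      ‖F.Δ j ((s j)⁻¹ * (m * l))‖ ≤ ‖F.Δ j (1 * (m * l))‖ := fun x => by
    obtain ⟨l, hl, e⟩ := ht2 x
    refine ⟨l, hl, fun m hm => ?_⟩
    simp only [R, Set.mem_setOf_eq, ht1 m hm, one_mul, ← mul_assoc]
    rw [e m hm, e _ ((F.L₁ j).mul_mem hs' hm)]
  refine ⟨κ, fun l => (κ' l)⁻¹, fun l => ⟨Or.inl (h3 l), Or.inr (by simpa using h3' l)⟩,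
    fun l => (fun x => c * (κ' l)⁻¹ * x) ⁻¹' Rᶜ, fun l => (fun x => (κ l * c)⁻¹ * x) ⁻¹' R,
    fun l => measurable_const_mul _ hR.compl, fun l => measurable_const_mul _ hR,
    fun l l' hl => Set.disjoint_left.2 fun x hx hx' => ?_,
    fun l l' hl => Set.disjoint_left.2 fun x hx hx' => ?_, fun l x hx => ?_⟩
  · obtain ⟨y, hy, e⟩ := key x
    have h5 : ∀ l, c * (κ' l)⁻¹ * x ∈ Rᶜ → ∃ d ∈ C',
        (s j)⁻¹ * ((κ' l * (c⁻¹ * (s j * d * (s j)⁻¹) * c))⁻¹ * y) ∈ F.P Finset.univ := by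
      intro l h6
      have h7 := (F.L₁ j).mul_mem hcL ((F.L₁ j).inv_mem (hD1' (h3' l)).2)
      obtain ⟨d, hd, h8⟩ := hC2' _ ((F.L₁ j).mul_mem h7 hy) (not_le.1 fun h9 =>
        h6 ((e _ h7).2 h9)).le
      refine ⟨d, hd, ?_⟩
      exact mem_eq ((F.P Finset.univ).mul_mem (h.z_mem_P (hsZ _ (F.Z.inv_mem hcZ)) _) h8)
        (by group)
    obtain ⟨d, hd, h6⟩ := h5 l hx
    obtain ⟨d', hd', h6'⟩ := h5 l' hx'
    have h7 : ∀ l, ∀ d ∈ C', κ' l * (c⁻¹ * (s j * d * (s j)⁻¹) * c) ∈ F.Up ⊓ F.L₁ j := fun l d hd =>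
      Subgroup.mul_mem _ (hD1' (h3' l)) ⟨by
        simpa using h.zup _ (F.Z.inv_mem hcZ) _ (hU d (hC1' hd)).1,
        (F.L₁ j).mul_mem ((F.L₁ j).mul_mem ((F.L₁ j).inv_mem hcL) (hU d (hC1' hd)).2) hcL⟩
    have h8 := um_P h (hU' _ (Subgroup.mul_mem _ (Subgroup.inv_mem _ (h7 l d hd)) (h7 l' d' hd')))
      (mem_eq ((F.P Finset.univ).mul_mem h6 ((F.P Finset.univ).inv_mem h6')) (by group))
    refine h4' l l' hl _ ⟨d, hd, rfl⟩ _ ⟨d', hd', rfl⟩ ?_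
    rw [inv_pow, ← hc, inv_inv]
    exact inv_mul_eq_one.1 (mul_left_cancel (mul_right_cancel (h8.trans (by group : _ =
      (s j)⁻¹ * 1 * s j))))
  · obtain ⟨y, hy, e⟩ := key x
    have h5 : ∀ l, (κ l * c)⁻¹ * x ∈ R → ∃ d ∈ C,
        (κ l * (c * d * c⁻¹))⁻¹ * y ∈ F.P Finset.univ := by
      intro l h6
      have h7 := (F.L₁ j).inv_mem ((F.L₁ j).mul_mem (hD1 (h3 l)).2 hcL)
      obtain ⟨d, hd, h8⟩ := hC2 _ ((F.L₁ j).mul_mem h7 hy) ((e _ h7).1 h6)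
      refine ⟨d, hd, ?_⟩
      exact mem_eq ((F.P Finset.univ).mul_mem (h.z_mem_P hcZ _) h8) (by group)
    obtain ⟨d, hd, h6⟩ := h5 l hx
    obtain ⟨d', hd', h6'⟩ := h5 l' hx'
    have h7 : ∀ l, ∀ d ∈ C, κ l * (c * d * c⁻¹) ∈ F.Um := fun l d hd =>
      F.Um.mul_mem (hD1 (h3 l)).1 (h.zum _ hcZ _ (hC1 hd).1)
    have h8 := um_P h (F.Um.mul_mem (F.Um.inv_mem (h7 l d hd)) (h7 l' d' hd'))
      (mem_eq ((F.P Finset.univ).mul_mem h6 ((F.P Finset.univ).inv_mem h6')) (by group))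
    exact h4 l l' hl d hd d' hd' (inv_mul_eq_one.1 h8)
  · have h5 : c * (κ' l)⁻¹ * x ∈ R := not_not.1 hx
    rw [Set.mem_preimage, add_mul, pow_add, ← hc]
    rwa [show (κ l * c)⁻¹ * (κ l * (c * c) * (κ' l)⁻¹ * x) = c * (κ' l)⁻¹ * x by group]

end Vale.Agent.P092SC
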